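import Vale.Agent.P200.Betti.Tri.Lower
import Vale.Agent.P200.Betti.Free.FramePow

/-!
The degeneration from triangular rows over the algebraic closure, for any number of forms: the
missing forms are replaced by powers of linear forms of a degree above all the given ones.
-/

namespace Vale.Agent.P200.Betti.Tri

open MvPolynomial Module
open scoped TensorProduct
open Vale.Agent.P200.Quad (Quo quoDeg mkA)
open Vale.Agent.P200.Betti.Skew (tensorRing pc xv rm rm_apply lin tmul_mul xv_comm mem_pc_tmul
  lin_mem_pc mul_mem_pc regList_pows)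

universe u

attribute [local instance] tensorRing

/-- Every regular sequence of these degrees filling all variables has triangular rows. -/
def Triangular (L : Type u) [Field L] {n : ℕ} (a : Fin n → ℕ) : Prop :=
  ∀ f : Fin n → MvPolynomial (Fin n) L, (∀ i, (f i).IsHomogeneous (a i)) →
    RegList ⊥ (List.ofFn f) →
    ∃ (D : Type u) (_ : DivisionRing D) (_ : Algebra L D) (g E : Fin n → Fin n → D)
      (q : Fin n → Fin n → L),
      (∀ k l, k < l → q k l ≠ 0) ∧
      (∀ k l, k < l → ∀ i, g l i * g k i = algebraMap L D (q k l) * (g k i * g l i)) ∧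
      (∀ k l, k < l → ∀ i j, g l j * g k i + g l i * g k j =
        algebraMap L D (q k l) * (g k i * g l j + g k j * g l i)) ∧
      (∀ i j, ∑ k, E i k * g k j = if i = j then 1 else 0) ∧
      ∀ k, lin f (g k) ^ a k ∈
        ⨆ j : {j : Fin n // k < j}, (pc (D := D) f (a k - 1)).map (rm f (lin f (g j)))

set_option maxHeartbeats 800000 in
/-- Rows over the given field from triangular rows over the algebraic closure. -/
theorem exists_datum {K : Type u} [Field K] {c m N : ℕ} {a : Fin c → ℕ} (ha : ∀ i, 0 < a i)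
    (hN : 0 < N) (haN : ∀ i, a i < N)
    (H : Triangular (AlgebraicClosure K) (Fin.append a fun _ : Fin m => N))
    {f : Fin c → MvPolynomial (Fin (c + m)) K} (hf : ∀ i, (f i).IsHomogeneous (a i))
    (hreg : RegList ⊥ (List.ofFn f)) :
    ∃ (D : Type u) (_ : DivisionRing D) (_ : Algebra K D) (_ : Algebra (AlgebraicClosure K) D),
      Nonempty (Datum f (D := D) (AlgebraicClosure K) a) := by
  classical
  let L := AlgebraicClosure K
  let φ := map (σ := Fin (c + m)) (algebraMap K L)
  have hregL : RegList ⊥ (List.ofFn fun i => φ (f i)) := by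
    have := Quad.regList_extI (L := L) _ _ hreg
    rwa [extI, Ideal.map_bot, List.map_ofFn] at this
  have hfL : ∀ i, (φ (f i)).IsHomogeneous (a i) := fun i => (hf i).map _
  have hposL : ∀ g ∈ List.ofFn (fun i => φ (f i)), HomogPos g := fun g hg => by
    obtain ⟨i, rfl⟩ := List.mem_ofFn.1 hg
    exact ⟨a i, ha i, hfL i⟩
  obtain ⟨ls, hls, hregls, -⟩ := exists_linear_extension hposL hregL m (by simp)
  let F : Fin (c + m) → MvPolynomial (Fin (c + m)) L :=
    Fin.append (fun i => φ (f i)) (fun j => ls j ^ N)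
  have hF : ∀ k, (F k).IsHomogeneous (Fin.append a (fun _ : Fin m => N) k) := fun k => by
    induction k using Fin.addCases with
    | left i => simpa [F] using hfL i
    | right j => simpa [F] using (hls j).pow N
  have hregF : RegList ⊥ (List.ofFn F) := by
    have hall : ∀ g ∈ List.ofFn (fun i => φ (f i)) ++ List.ofFn ls, HomogPos g := fun g hg => by
      rcases List.mem_append.1 hg with hg | hg
      · exact hposL g hg
      · obtain ⟨j, rfl⟩ := List.mem_ofFn.1 hg
        exact ⟨1, one_pos, hls j⟩
    have h := regList_pows hN _ _ hall hregls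
    rwa [List.map_ofFn, ← List.ofFn_fin_append] at h
  obtain ⟨D, _, instL, g, E, q, hq, hdiag, hsym, hinv, hpow⟩ := H F hF hregF
  let : Algebra K D := ((algebraMap L D).comp (algebraMap K L)).toAlgebra' fun r x =>
    Algebra.commutes (algebraMap K L r) x
  have hKL : ∀ r : K, algebraMap K D r = algebraMap L D (algebraMap K L r) := fun r => rfl
  -- the evaluation of the polynomials over the closure
  let ι : L →+* D ⊗[K] Quo f :=
    (Algebra.TensorProduct.includeLeftRingHom : D →+* D ⊗[K] Quo f).comp (algebraMap L D)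
  have hι : ∀ x, ι x = algebraMap L D x ⊗ₜ[K] (1 : Quo f) := fun x => rfl
  let Z : Subring (D ⊗[K] Quo f) := Subring.center _
  have hιZ : ∀ x, ι x ∈ Z := fun x => by
    rw [Subring.mem_center_iff]
    intro v
    induction v using TensorProduct.induction_on with
    | zero => simp
    | tmul d q => rw [hι, tmul_mul, tmul_mul, one_mul, mul_one, Algebra.commutes]
    | add a b ha hb => rw [add_mul, mul_add, ha, hb]
  have hxZ : ∀ i, xv (D := D) f i ∈ Z := fun i => by
    rw [Subring.mem_center_iff]
    exact fun v => xv_comm f i v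
  let ev : MvPolynomial (Fin (c + m)) L →+* Z :=
    eval₂Hom (ι.codRestrict Z hιZ) fun i => ⟨xv f i, hxZ i⟩
  let ψ : MvPolynomial (Fin (c + m)) L →+* D ⊗[K] Quo f := Z.subtype.comp ev
  have hψC : ∀ x, ψ (C x) = ι x := fun x => by
    show ((ev (C x)) : D ⊗[K] Quo f) = ι x
    rw [show ev (C x) = ι.codRestrict Z hιZ x from eval₂Hom_C _ _ x]
    rfl
  have hψX : ∀ i, ψ (X i) = xv f i := fun i => by simp [ψ, ev]
  have hψZ : ∀ p v, v * ψ p = ψ p * v := fun p v => Subring.mem_center_iff.1 (ev p).2 v
  have hψφ : ∀ p, ψ (φ p) = (1 : D) ⊗ₜ[K] mkA f p := fun p => by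
    induction p using MvPolynomial.induction_on with
    | C r =>
      simp only [φ, map_C, hψC, hι, ← hKL]
      rw [show mkA f (C r) = r • (1 : Quo f) by
        rw [C_eq_smul_one, map_smul]
        rfl, Algebra.algebraMap_eq_smul_one, TensorProduct.smul_tmul]
    | add p q hp hq => simp [hp, hq, TensorProduct.tmul_add]
    | mul_X p i hp =>
      rw [map_mul, map_mul, hp, show φ (X i) = X i from map_X _ i, hψX, xv,
        tmul_mul, one_mul, show mkA f (p * X i) = mkA f p * mkA f (X i) from
          map_mul (Ideal.Quotient.mkₐ K (Ideal.span (Set.range f))) _ _]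
  have hsmul : ∀ (x : D) (w : D ⊗[K] Quo f), x ⊗ₜ[K] (1 : Quo f) * w = x • w := fun x w => by
    induction w using TensorProduct.induction_on with
    | zero => simp
    | tmul d q => simp [TensorProduct.smul_tmul']
    | add a b ha hb => rw [mul_add, smul_add, ha, hb]
  have hψsmul : ∀ (l : L) p, ψ (l • p) = algebraMap L D l • ψ p := fun l p => by
    rw [smul_eq_C_mul, map_mul, hψC, hι, hsmul]
  have hψpc : ∀ {d : ℕ} {u : MvPolynomial (Fin (c + m)) L}, u.IsHomogeneous d →
      ψ u ∈ pc f d := fun {d u} hu => by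
    rw [u.as_sum, map_sum]
    refine sum_mem fun e he => ?_
    rw [show monomial e (coeff e u) = coeff e u • φ (monomial e 1) by
      simp [φ, map_monomial, smul_monomial], hψsmul, hψφ]
    refine Submodule.smul_mem _ _ (mem_pc_tmul f _ ⟨monomial e 1, ?_, rfl⟩)
    refine isHomogeneous_monomial _ ?_
    by_contra hne
    exact (MvPolynomial.mem_support_iff.1 he) (hu.coeff_eq_zero hne)
  -- the quotient over the closure, one degree below `N` at a time
  let θ₀ : ℕ → MvPolynomial (Fin (c + m)) L →+ D ⊗[K] Quo f := fun d =>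
    ψ.toAddMonoidHom.comp (homogeneousComponent (R := L) d).toAddMonoidHom
  obtain ⟨sec, hsec⟩ := LinearMap.exists_rightInverse_of_surjective (mkA F)
    (LinearMap.range_eq_top.2 (Ideal.Quotient.mkₐ_surjective L _))
  let θ : ℕ → Quo F →+ D ⊗[K] Quo f := fun d => (θ₀ d).comp sec.toAddMonoidHom
  have hθ₀ : ∀ d, d < N → ∀ w, mkA F w = 0 → θ₀ d w = 0 := fun d hd w hw => by
    obtain ⟨v, rfl⟩ := Ideal.mem_span_range_iff_exists_fun.1 (Ideal.Quotient.eq_zero_iff_mem.1 hw)
    show ψ (homogeneousComponent d (∑ l, v l * F l)) = 0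
    rw [map_sum, map_sum]
    refine Finset.sum_eq_zero fun l _ => ?_
    rw [mul_comm, homogeneousComponent_mul_left (hF l)]
    induction l using Fin.addCases with
    | left i =>
      split_ifs
      · rw [map_mul, show F (Fin.castAdd m i) = φ (f i) from Fin.append_left _ _ _, hψφ,
          show mkA f (f i) = 0 from
            Ideal.Quotient.eq_zero_iff_mem.2 (Ideal.subset_span ⟨i, rfl⟩),
          TensorProduct.tmul_zero, zero_mul]
      · exact map_zero ψ
    | right j =>
      rw [if_neg (by simp; omega), map_zero]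
  have hθ : ∀ d, d < N → ∀ w, θ d (mkA F w) = θ₀ d w := fun d hd w => by
    show θ₀ d (sec (mkA F w)) = θ₀ d w
    rw [← sub_eq_zero, ← map_sub]
    refine hθ₀ d hd _ ?_
    rw [map_sub, ← LinearMap.comp_apply, hsec, LinearMap.id_apply, sub_self]
  let Λ : ℕ → D ⊗[L] Quo F →+ D ⊗[K] Quo f := fun d =>
    TensorProduct.liftAddHom
      (AddMonoidHom.mk' (fun x => AddMonoidHom.mk' (fun r => x • θ d r)
        fun a b => by simp [smul_add]) fun a b => by ext r; simp [add_smul])
      fun l x r => by
        show (l • x) • θ d r = x • θ d (l • r)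
        rw [show θ d (l • r) = algebraMap L D l • θ d r by
          simp only [θ, θ₀, AddMonoidHom.comp_apply, LinearMap.toAddMonoidHom_coe, map_smul,
            RingHom.toAddMonoidHom_eq_coe, AddMonoidHom.coe_coe, hψsmul]]
        rw [smul_smul, Algebra.smul_def, Algebra.commutes]
  have hΛtmul : ∀ d, d < N → ∀ x p,
      Λ d (x ⊗ₜ[L] mkA F p) = x • ψ (homogeneousComponent d p) := fun d hd x p => by
    show x • θ d (mkA F p) = _
    rw [hθ d hd]
    rfl
  have hΛsmul : ∀ d (r : D) v, Λ d (r • v) = r • Λ d v := fun d r v => by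
    induction v using TensorProduct.induction_on with
    | zero => simp
    | tmul x p =>
      show (r * x) • θ d p = r • (x • θ d p)
      rw [smul_smul]
    | add a b ha hb => rw [smul_add, map_add, map_add, smul_add, ha, hb]
  have hΛlin : ∀ d, d + 1 < N → ∀ (k : Fin (c + m)) v,
      Λ (d + 1) (v * lin F (g k)) = Λ d v * lin f (g k) := by
    intro d hd k v
    induction v using TensorProduct.induction_on with
    | zero => simp
    | add a b ha hb => rw [add_mul, map_add, map_add, add_mul, ha, hb]
    | tmul x r =>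
      obtain ⟨p, rfl⟩ : ∃ p, mkA F p = r := Ideal.Quotient.mkₐ_surjective L _ r
      simp only [lin, Finset.mul_sum, map_sum]
      refine Finset.sum_congr rfl fun i _ => ?_
      rw [tmul_mul, show mkA F p * mkA F (X i) = mkA F (p * X i) from
        (map_mul (Ideal.Quotient.mkₐ L (Ideal.span (Set.range F))) p (X i)).symm,
        hΛtmul _ hd, hΛtmul d (by omega), mul_comm p,
        homogeneousComponent_mul_left (isHomogeneous_X L i), if_pos (Nat.le_add_left 1 d),
        Nat.add_sub_cancel, map_mul, hψX]
      set P := ψ (homogeneousComponent d p)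
      have hP : ∀ v, v * P = P * v := fun v => hψZ _ v
      rw [show g k i ⊗ₜ[K] mkA f (X i) = g k i • xv f i by simp [xv, TensorProduct.smul_tmul'],
        smul_mul_assoc, ← hP (g k i • xv f i), smul_mul_assoc, smul_smul]
  have hΛpow : ∀ d, d < N → ∀ k, Λ d (lin F (g k) ^ d) = lin f (g k) ^ d := by
    intro d
    induction d with
    | zero =>
      intro hd k
      rw [pow_zero, pow_zero, show (1 : D ⊗[L] Quo F) = (1 : D) ⊗ₜ[L] mkA F 1 by
        rw [Algebra.TensorProduct.one_def]
        exact congrArg _ (map_one (Ideal.Quotient.mkₐ L (Ideal.span (Set.range F)))).symm,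
        hΛtmul 0 hd, one_smul]
      rw [show homogeneousComponent 0 (1 : MvPolynomial (Fin (c + m)) L) = 1 from
        homogeneousComponent_eq_self (isHomogeneous_one _ _), map_one]
    | succ d ih =>
      intro hd k
      rw [pow_succ, pow_succ, hΛlin d hd, ih (by omega)]
  have hΛpc : ∀ d, d < N → ∀ v ∈ pc (D := D) F d, Λ d v ∈ pc (D := D) f d := by
    intro d hd v hv
    induction hv using Submodule.span_induction with
    | mem y hy =>
      obtain ⟨_, ⟨u, hu, rfl⟩, rfl⟩ := hy
      rw [hΛtmul d hd, one_smul]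
      exact hψpc (homogeneousComponent_isHomogeneous _ _)
    | zero => simp
    | add y z _ _ hy hz => rw [map_add]; exact add_mem hy hz
    | smul r y _ hy => rw [hΛsmul]; exact Submodule.smul_mem _ _ hy
  refine ⟨D, inferInstance, inferInstance, instL, ⟨
    { g := g
      E := E
      q := q
      q_ne := hq
      comm_diag := hdiag
      comm_sym := hsym
      inv := hinv
      pow_mem := fun k => ?_ }⟩⟩
  have hk := hpow (Fin.castAdd m k)
  rw [Fin.append_left] at hk
  have hkN : a k < N := haN k
  obtain ⟨b, hb⟩ : ∃ b, a k = b + 1 := ⟨a k - 1, by have := ha k; omega⟩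
  rw [← hΛpow (a k) hkN]
  rw [hb, Nat.add_sub_cancel] at hk ⊢
  generalize lin F (g (Fin.castAdd m k)) ^ (b + 1) = v at hk
  induction hk using Submodule.iSup_induction' with
  | mem j y hy =>
    obtain ⟨x, hx, rfl⟩ := hy
    rw [rm_apply, hΛlin b (by omega)]
    exact le_iSup (fun j : {j : Fin (c + m) // Fin.castAdd m k < j} =>
      (pc (D := D) f b).map (rm f (lin f (g j)))) j ⟨_, hΛpc b (by omega) x hx, rfl⟩
  | zero => simp
  | add x y _ _ hx hy => rw [map_add]; exact add_mem hx hy

/-- The degeneration from triangular rows. -/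
theorem exists_monomial_betti {K : Type u} [Field K] {n c N : ℕ} {a : Fin c → ℕ}
    (ha : ∀ i, 0 < a i) (hN : 0 < N) (haN : ∀ i, a i < N) (hcn : c ≤ n)
    (H : Triangular (AlgebraicClosure K)
      fun i : Fin n => if h : (i : ℕ) < c then a ⟨i, h⟩ else N)
    {f : Fin c → MvPolynomial (Fin n) K}
    (hf : ∀ i, (f i).IsHomogeneous (a i)) (hreg : RegList ⊥ (List.ofFn f))
    {I : Ideal (MvPolynomial (Fin n) K)} (hI : HomogI I) (hfI : ∀ i, f i ∈ I) :
    ∃ T : ℕ → Finset (Fin n →₀ ℕ),
      (∀ d, ∀ e ∈ T d, e.degree = d) ∧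
      (∀ d, ∀ e : Fin n →₀ ℕ, e.degree = d → (∃ i : Fin c, a i ≤ e (Fin.castLE hcn i)) → e ∈ T d) ∧
      (∀ d, ∀ e ∈ T d, ∀ v, e + Finsupp.single v 1 ∈ T (d + 1)) ∧
      (∀ d, (T d).card = finrank K (degPart d I)) ∧
      ∀ p j, betti I p j ≤ betti (setIdeal T K) p j := by
  classical
  obtain ⟨m, rfl⟩ : ∃ m, n = c + m := ⟨n - c, by omega⟩
  have happ : (fun i : Fin (c + m) => if h : (i : ℕ) < c then a ⟨i, h⟩ else N) =
      Fin.append a fun _ : Fin m => N := by
    funext i
    induction i using Fin.addCases with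
    | left i => simp
    | right j => simp
  rw [happ] at H
  obtain ⟨D, _, _, _, ⟨M⟩⟩ := exists_datum ha hN haN H hf hreg
  have hIf : HomogI (Ideal.span (Set.range f)) := by
    have := homogI_ofList' (L := List.ofFn f) fun g hg => by
      obtain ⟨i, rfl⟩ := List.mem_ofFn.1 hg
      exact ⟨a i, ha i, hf i⟩
    convert this using 1
    exact congrArg Ideal.span (Set.ext fun x => by simp [List.mem_ofFn])
  refine ⟨M.exps I, fun d e he => (M.mem_exps.1 he).1, fun d e hd he => ?_,
    fun d e he v => M.exps_closed ha he v, fun d => M.card_exps ha hIf hI hfI d,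
    M.betti_le_exps ha hIf hI hfI⟩
  obtain ⟨i, hi⟩ := he
  exact M.exps_powers hd ⟨i, hi⟩

end Vale.Agent.P200.Betti.Tri
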