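import Vale.Agent.P200.Betti.Free.Frame
import Vale.Agent.P200.Quad.Artinian

/-!
Ordered words in twisted commuting linear elements whose powers are triangular: a power of one of
the first elements lies among the multiples of the later ones.
-/

namespace Vale.Agent.P200.Betti.Tri

open MvPolynomial Module
open scoped TensorProduct
open Vale.Agent.P200.Quad (Quo quoDeg mkA finrank_span_one_tmul finite_quoDeg)
open Vale.Agent.P200.Betti.Skew (tensorRing pc xv rm rm_apply lin tmul_mul xv_comm mem_pc_tmul
  lin_mem_pc one_tmul_mul_smul mul_mem_pc)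

universe u

variable {K : Type u} [Field K] {c m : ℕ} {D : Type u} [DivisionRing D] [Algebra K D]
  {Z : Type*} [Field Z] [Algebra Z D]
variable (f : Fin c → MvPolynomial (Fin (c + m)) K)

attribute [local instance] tensorRing

/-- The data: twisted commuting rows, the power of each of the first ones lying among the multiples
of the later rows. -/
structure Datum (Z : Type*) [Field Z] [Algebra Z D] (a : Fin c → ℕ) where
  /-- the rows -/
  g : Fin (c + m) → Fin (c + m) → D
  /-- an inverse -/
  E : Fin (c + m) → Fin (c + m) → D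
  /-- the twists -/
  q : Fin (c + m) → Fin (c + m) → Z
  q_ne : ∀ k l, k < l → q k l ≠ 0
  comm_diag : ∀ k l, k < l → ∀ i, g l i * g k i = algebraMap Z D (q k l) * (g k i * g l i)
  comm_sym : ∀ k l, k < l → ∀ i j, g l j * g k i + g l i * g k j =
    algebraMap Z D (q k l) * (g k i * g l j + g k j * g l i)
  inv : ∀ i j, ∑ k, E i k * g k j = if i = j then 1 else 0
  pow_mem : ∀ k : Fin c, lin f (g (Fin.castAdd m k)) ^ a k ∈
    ⨆ j : {j : Fin (c + m) // Fin.castAdd m k < j},
      (pc (D := D) f (a k - 1)).map (rm f (lin f (g j)))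

variable {f} {a : Fin c → ℕ} (M : Datum f (D := D) Z a)

namespace Datum

/-- The linear element of a row. -/
noncomputable def G (k : Fin (c + m)) : D ⊗[K] Quo f := lin f (M.g k)

lemma G_mem (k : Fin (c + m)) : M.G k ∈ pc f 1 := lin_mem_pc f _

lemma tmul_one_mem (x : D) : x ⊗ₜ[K] (1 : Quo f) ∈ pc f 0 :=
  mem_pc_tmul f x ⟨1, isHomogeneous_one _ _,
    map_one (Ideal.Quotient.mkₐ K (Ideal.span (Set.range f)))⟩

lemma pc_zero_le : pc (D := D) f 0 ≤ Submodule.span D {(1 : D ⊗[K] Quo f)} := by
  refine Submodule.span_le.2 ?_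
  rintro _ ⟨q, ⟨u, hu, rfl⟩, rfl⟩
  rw [show u = C (coeff 0 u) from totalDegree_eq_zero_iff_eq_C.1 (Nat.le_zero.1 hu.totalDegree_le),
    C_eq_smul_one, map_smul, show mkA f 1 = 1 from
      map_one (Ideal.Quotient.mkₐ K (Ideal.span (Set.range f)))]
  simp only [SetLike.mem_coe, TensorProduct.tmul_smul]
  exact Submodule.smul_of_tower_mem _ _ (Submodule.subset_span rfl)

lemma pc_succ_le (d : ℕ) : pc (D := D) f (d + 1) ≤ ⨆ k, (pc f d).map (rm f (M.G k)) := by
  refine Submodule.span_le.2 ?_
  rintro _ ⟨q, ⟨u, hu, rfl⟩, rfl⟩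
  have hu' : u ∈ homogeneousSubmodule (Fin (c + m)) K d * homogeneousSubmodule (Fin (c + m)) K 1 := by
    rw [← homogeneousSubmodule_one_pow (σ := Fin (c + m)) (R := K) d, ← pow_succ,
      homogeneousSubmodule_one_pow]
    exact hu
  clear hu
  induction hu' using Submodule.mul_induction_on' with
  | mem_mul_mem x hx y hy =>
    rw [homogeneousSubmodule_one_eq_span_X] at hy
    induction hy using Submodule.span_induction with
    | mem y hy =>
      obtain ⟨i, rfl⟩ := hy
      have key : ∑ k, (M.E i k ⊗ₜ[K] mkA f x) * M.G k = (1 : D) ⊗ₜ[K] mkA f (x * X i) := by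
        simp only [G, lin, Finset.mul_sum, tmul_mul]
        rw [Finset.sum_comm]
        simp only [← TensorProduct.sum_tmul, M.inv]
        rw [Finset.sum_eq_single i (fun j _ hj => by simp [Ne.symm hj]) (by simp), if_pos rfl,
          show mkA f (x * X i) = mkA f x * mkA f (X i) from
            map_mul (Ideal.Quotient.mkₐ K (Ideal.span (Set.range f))) _ _]
      show (1 : D) ⊗ₜ[K] mkA f (x * X i) ∈ ⨆ k, (pc f d).map (rm f (M.G k))
      rw [← key]
      exact sum_mem fun k _ => le_iSup (fun k => (pc f d).map (rm f (M.G k))) k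
        ⟨_, mem_pc_tmul f _ ⟨x, hx, rfl⟩, rfl⟩
    | zero => simp
    | add y y' _ _ hy hy' =>
      simp only [SetLike.mem_coe] at hy hy' ⊢
      rw [mul_add, map_add, TensorProduct.tmul_add]; exact add_mem hy hy'
    | smul r y _ hy =>
      simp only [SetLike.mem_coe] at hy ⊢
      rw [mul_smul_comm, map_smul, TensorProduct.tmul_smul]
      exact Submodule.smul_of_tower_mem _ _ hy
  | add x _ y _ hx hy =>
    simp only [SetLike.mem_coe] at hx hy ⊢
    rw [map_add, TensorProduct.tmul_add]; exact add_mem hx hy

lemma mul_central (z : Z) (w v : D ⊗[K] Quo f) :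
    w * (algebraMap Z D z • v) = algebraMap Z D z • (w * v) := by
  induction v using TensorProduct.induction_on with
  | zero => simp
  | add a b ha hb => simp only [smul_add, mul_add, ha, hb]
  | tmul x p =>
    induction w using TensorProduct.induction_on with
    | zero => simp
    | add a b ha hb => simp only [smul_add, add_mul, ha, hb]
    | tmul y r =>
      simp only [TensorProduct.smul_tmul', smul_eq_mul, tmul_mul]
      rw [← mul_assoc, ← Algebra.commutes z y, mul_assoc]

lemma G_swap {k l : Fin (c + m)} (h : k < l) :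
    M.G l * M.G k = algebraMap Z D (M.q k l) • (M.G k * M.G l) := by
  classical
  rw [← sub_eq_zero]
  simp only [G, lin, Finset.sum_mul_sum, tmul_mul, Finset.smul_sum, TensorProduct.smul_tmul',
    smul_eq_mul, ← Finset.sum_sub_distrib, ← TensorProduct.sub_tmul, ← Finset.sum_product']
  refine Finset.sum_involution (fun x _ => (x.2, x.1)) (fun x _ => ?_) (fun x _ hne he => ?_)
    (fun x _ => Finset.mem_univ _) (fun x _ => rfl)
  · rw [mul_comm (mkA f (X x.2)), ← TensorProduct.add_tmul]
    rw [show M.g l x.1 * M.g k x.2 - algebraMap Z D (M.q k l) * (M.g k x.1 * M.g l x.2) +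
        (M.g l x.2 * M.g k x.1 - algebraMap Z D (M.q k l) * (M.g k x.2 * M.g l x.1)) = 0 from ?_,
      TensorProduct.zero_tmul]
    rw [← sub_eq_zero.2 (M.comm_sym k l h x.1 x.2)]
    noncomm_ring
  · apply hne
    have e : x.2 = x.1 := congrArg Prod.fst he
    rw [e, M.comm_diag k l h, sub_self, TensorProduct.zero_tmul]

/-- The product of the elements along a list. -/
noncomputable def word (l : List (Fin (c + m))) : D ⊗[K] Quo f := (l.map M.G).prod

lemma word_perm {l l' : List (Fin (c + m))} (h : l.Perm l') :
    ∃ z : Z, M.word l = algebraMap Z D z • M.word l' := by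
  induction h with
  | nil => exact ⟨1, by simp⟩
  | cons k _ ih =>
    obtain ⟨z, hz⟩ := ih
    refine ⟨z, ?_⟩
    simp only [word, List.map_cons, List.prod_cons] at hz ⊢
    rw [hz, mul_central]
  | swap x y l =>
    simp only [word, List.map_cons, List.prod_cons, ← mul_assoc]
    rcases lt_trichotomy x y with h | h | h
    · exact ⟨M.q x y, by rw [M.G_swap h, smul_mul_assoc]⟩
    · exact ⟨1, by rw [h, map_one, one_smul]⟩
    · refine ⟨(M.q y x)⁻¹, ?_⟩
      rw [M.G_swap h, smul_mul_assoc, smul_smul, ← map_mul, inv_mul_cancel₀ (M.q_ne _ _ h),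
        map_one, one_smul]
  | trans _ _ ih₁ ih₂ =>
    obtain ⟨z, hz⟩ := ih₁
    obtain ⟨z', hz'⟩ := ih₂
    exact ⟨z * z', by rw [hz, hz', smul_smul, map_mul]⟩

/-- The increasing list of an exponent vector. -/
noncomputable def expList (e : Fin (c + m) →₀ ℕ) : List (Fin (c + m)) :=
  (List.finRange (c + m)).flatMap fun i => List.replicate (e i) i

lemma count_expList (e : Fin (c + m) →₀ ℕ) (i : Fin (c + m)) : (expList e).count i = e i := by
  rw [expList, List.count_flatMap, show List.count i ∘ (fun j => List.replicate (e j) j) =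
    fun j => if j = i then e j else 0 by
      funext j
      simp [List.count_replicate]]
  rw [← List.ofFn_eq_map, List.sum_ofFn]
  simp

lemma pairwise_expList (e : Fin (c + m) →₀ ℕ) : (expList e).Pairwise (· ≤ ·) := by
  rw [expList, List.pairwise_flatMap]
  refine ⟨fun i _ => List.pairwise_replicate.2 (Or.inr le_rfl), ?_⟩
  refine List.Pairwise.imp ?_ (List.pairwise_lt_finRange (c + m))
  intro x y hxy x' hx' y' hy'
  rw [List.eq_of_mem_replicate hx', List.eq_of_mem_replicate hy']
  exact hxy.le

lemma length_expList (e : Fin (c + m) →₀ ℕ) : (expList e).length = e.degree := by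
  rw [expList, List.length_flatMap, Finsupp.degree_eq_sum]
  simp [← List.ofFn_eq_map, List.sum_ofFn]

/-- The increasing word of an exponent vector. -/
noncomputable def w (e : Fin (c + m) →₀ ℕ) : D ⊗[K] Quo f := M.word (expList e)

lemma word_mem : ∀ l : List (Fin (c + m)), M.word l ∈ pc f l.length
  | [] => by
    rw [word, List.map_nil, List.prod_nil, Algebra.TensorProduct.one_def, List.length_nil]
    exact tmul_one_mem 1
  | k :: l => by
    rw [word, List.map_cons, List.prod_cons, List.length_cons]
    have h := mul_mem_pc f (M.G_mem k) (word_mem l)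
    rwa [show 1 + l.length = l.length + 1 from Nat.add_comm _ _] at h

lemma w_mem (e : Fin (c + m) →₀ ℕ) : M.w e ∈ pc f e.degree := by
  rw [← length_expList]
  exact M.word_mem _

lemma word_eq_w (l : List (Fin (c + m))) (e : Fin (c + m) →₀ ℕ) (h : ∀ i, l.count i = e i) :
    ∃ z : Z, M.word l = algebraMap Z D z • M.w e :=
  M.word_perm (List.perm_iff_count.2 fun i => by rw [h, count_expList])

lemma word_mul_G : ∀ (l : List (Fin (c + m))) (k : Fin (c + m)), l.Pairwise (· ≤ ·) →
    M.word l * M.G k = algebraMap Z D ((l.map fun i => if k < i then M.q k i else 1).prod) •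
      M.word (l.orderedInsert (· ≤ ·) k)
  | [], k, _ => by simp [word]
  | x :: l, k, h => by
    obtain ⟨hx, hl⟩ := List.pairwise_cons.1 h
    have ih := word_mul_G l k hl
    simp only [word, List.map_cons, List.prod_cons] at ih ⊢
    rw [mul_assoc, ih, mul_central]
    by_cases hkx : k ≤ x
    · rw [List.orderedInsert_cons, if_pos hkx]
      have hins : l.orderedInsert (· ≤ ·) k = k :: l := by
        cases l with
        | nil => rfl
        | cons y l => rw [List.orderedInsert_cons, if_pos (hkx.trans (hx y (by simp)))]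
      rw [hins]
      simp only [List.map_cons, List.prod_cons, ← mul_assoc]
      rcases eq_or_lt_of_le hkx with rfl | hlt
      · rw [if_neg (lt_irrefl _), one_mul]
      · rw [if_pos hlt, M.G_swap hlt, smul_mul_assoc, smul_smul, ← map_mul, mul_comm]
    · rw [List.orderedInsert_cons, if_neg hkx, if_neg (fun h' => hkx h'.le), one_mul]
      simp

/-- The twist met when a position enters an increasing word. -/
noncomputable def tw (k : Fin (c + m)) (e : Fin (c + m) →₀ ℕ) : Z :=
  ∏ i ∈ Finset.univ.filter (k < ·), M.q k i ^ e i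

lemma w_mul_G (e : Fin (c + m) →₀ ℕ) (k : Fin (c + m)) :
    M.w e * M.G k = algebraMap Z D (M.tw k e) • M.w (e + Finsupp.single k 1) := by
  rw [w, M.word_mul_G _ k (pairwise_expList e), w]
  congr 2
  · rw [tw, expList, List.map_flatMap, List.flatMap, List.prod_flatten, List.map_map, Function.comp_def]
    simp only [List.map_replicate, List.prod_replicate, ← List.ofFn_eq_map, List.prod_ofFn]
    rw [Finset.prod_filter]
    exact Finset.prod_congr rfl fun i _ => by split_ifs <;> simp
  · refine List.Perm.eq_of_pairwise' (r := (· ≤ ·)) ((pairwise_expList e).orderedInsert k _)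
      (pairwise_expList _) ?_
    refine List.perm_iff_count.2 fun i => ?_
    rw [(List.perm_orderedInsert _ k _).count_eq, List.count_cons, count_expList, count_expList,
      Finsupp.add_apply, Finsupp.single_apply]
    simp

/-- The reduced exponents of a degree. -/
noncomputable def red (a : Fin c → ℕ) (d : ℕ) : Finset (Fin (c + m) →₀ ℕ) :=
  ((Finset.univ : Finset (Fin (c + m))).finsuppAntidiag d).filter
    fun e => ∀ k : Fin c, e (Fin.castAdd m k) < a k

lemma mem_red {d : ℕ} {e : Fin (c + m) →₀ ℕ} :
    e ∈ red a d ↔ e.degree = d ∧ ∀ k : Fin c, e (Fin.castAdd m k) < a k := by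
  simp [red, Finsupp.degree_eq_sum]

lemma pc_le_words (d : ℕ) :
    pc (D := D) f d ≤ Submodule.span D (M.w '' {e | e.degree = d}) := by
  induction d with
  | zero =>
    refine pc_zero_le.trans (Submodule.span_mono ?_)
    rintro _ rfl
    refine ⟨0, map_zero _, ?_⟩
    simp [w, word, expList, List.flatMap]
  | succ d ih =>
    refine (M.pc_succ_le d).trans (iSup_le fun k => Submodule.map_le_iff_le_comap.2 ?_)
    refine ih.trans (Submodule.span_le.2 ?_)
    rintro _ ⟨e, he, rfl⟩
    rw [SetLike.mem_coe, Submodule.mem_comap, rm_apply]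
    rw [M.w_mul_G]
    exact Submodule.smul_mem _ _ (Submodule.subset_span
      ⟨e + Finsupp.single k 1, by simp [Set.mem_ofPred_eq ▸ he], rfl⟩)

/-- The order on exponents: the later the variables used, the smaller. -/
def key (e : Fin (c + m) →₀ ℕ) : OrderDual (Lex (Fin (c + m) → ℕ)) :=
  OrderDual.toDual (toLex fun i => e (Fin.rev i))

lemma key_lt_iff {e e' : Fin (c + m) →₀ ℕ} :
    key e < key e' ↔ ∃ i, (∀ j, i < j → e' j = e j) ∧ e' i < e i := by
  show toLex (fun i => e' (Fin.rev i)) < toLex (fun i => e (Fin.rev i)) ↔ _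
  constructor
  · rintro ⟨i, h1, h2⟩
    exact ⟨Fin.rev i, fun j hj => by simpa using h1 (Fin.rev j) (Fin.rev_lt_iff.2 hj), h2⟩
  · rintro ⟨i, h1, h2⟩
    refine ⟨Fin.rev i, fun j hj => h1 _ (Fin.lt_rev_iff.1 hj), ?_⟩
    show e' (Fin.rev (Fin.rev i)) < e (Fin.rev (Fin.rev i))
    rwa [Fin.rev_rev]

lemma key_injective : Function.Injective (key (c := c) (m := m)) := fun e e' h => by
  refine Finsupp.ext fun i => ?_
  have h1 := congrFun (toLex.injective (OrderDual.toDual.injective h)) (Fin.rev i)
  simpa using h1

lemma key_add_lt_iff (x : Fin (c + m) →₀ ℕ) {e e' : Fin (c + m) →₀ ℕ} :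
    key (x + e) < key (x + e') ↔ key e < key e' := by
  simp only [key_lt_iff, Finsupp.add_apply, Nat.add_left_cancel_iff, add_lt_add_iff_left]

/-- The exponents smaller in a degree, for induction. -/
noncomputable def below (d : ℕ) (e : Fin (c + m) →₀ ℕ) : Finset (Fin (c + m) →₀ ℕ) :=
  open scoped Classical in
  ((Finset.univ : Finset (Fin (c + m))).finsuppAntidiag d).filter fun e' => key e' < key e

lemma w_bad {e : Fin (c + m) →₀ ℕ} {k : Fin c} (ha : 0 < a k)
    (h : a k ≤ e (Fin.castAdd m k)) :
    M.w e ∈ Submodule.span D (M.w '' {e' | e'.degree = e.degree ∧ key e' < key e}) := by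
  set k' := Fin.castAdd m k
  obtain ⟨e', rfl⟩ : ∃ e', e = Finsupp.single k' (a k) + e' :=
    le_iff_exists_add.1 (Finsupp.single_le_iff.2 h)
  obtain ⟨z, hz⟩ := M.word_perm (l := expList (Finsupp.single k' (a k) + e'))
    (l' := List.replicate (a k) k' ++ expList e') (List.perm_iff_count.2 fun i => by
      rw [List.count_append, count_expList, count_expList, List.count_replicate, Finsupp.add_apply,
        Finsupp.single_apply]
      simp)
  set S := Submodule.span D (M.w '' {x | x.degree = (Finsupp.single k' (a k) + e').degree ∧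
    key x < key (Finsupp.single k' (a k) + e')})
  have hkey : ∀ v ∈ ⨆ j : {j : Fin (c + m) // k' < j},
      (pc (D := D) f (a k - 1)).map (rm f (lin f (M.g j))), v * M.word (expList e') ∈ S := by
    intro v hv
    induction hv using Submodule.iSup_induction' with
    | mem j x hx =>
      obtain ⟨y, hy, rfl⟩ := hx
      have hy' := M.pc_le_words _ hy
      clear hy
      rw [rm_apply]
      induction hy' using Submodule.span_induction with
      | mem t ht =>
        obtain ⟨x, hx, rfl⟩ := ht
        simp only [Set.mem_ofPred_eq] at hx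
        have hw : M.w x * lin f (M.g j) * M.word (expList e') =
            M.word (expList x ++ [j.1] ++ expList e') := by
          simp only [w, word, G, List.map_append, List.prod_append, List.map_cons, List.map_nil,
            List.prod_cons, List.prod_nil, mul_one]
        obtain ⟨z', hz'⟩ := M.word_eq_w (expList x ++ [j.1] ++ expList e')
          (x + Finsupp.single j.1 1 + e') fun i => by
            simp only [List.count_append, count_expList, List.count_singleton, Finsupp.add_apply,
              Finsupp.single_apply, beq_iff_eq]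
        rw [hw, hz']
        refine Submodule.smul_mem _ _ (Submodule.subset_span
          ⟨x + Finsupp.single j.1 1 + e', ⟨?_, ?_⟩, rfl⟩)
        · simp only [map_add, Finsupp.degree_single, hx]
          omega
        · rw [add_comm _ e', add_comm (Finsupp.single k' _) e', key_add_lt_iff, key_lt_iff]
          obtain ⟨i, hi, hmax⟩ := (Finset.univ.filter fun i => j.1 ≤ i ∧
            (x + Finsupp.single j.1 1 : Fin (c + m) →₀ ℕ) i ≠ 0).exists_max_image id
            ⟨j.1, by simp⟩
          simp only [Finset.mem_filter, Finset.mem_univ, true_and, id] at hi hmax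
          have hki : k' < i := lt_of_lt_of_le j.2 hi.1
          refine ⟨i, fun l hl => ?_, ?_⟩
          · rw [Finsupp.single_eq_of_ne (hki.trans hl).ne']
            by_contra hne
            exact absurd (hmax l ⟨hi.1.trans hl.le, Ne.symm hne⟩) (not_le.2 hl)
          · rw [Finsupp.single_eq_of_ne hki.ne']
            exact Nat.pos_of_ne_zero hi.2
      | zero => simp
      | add x y _ _ hx hy => rw [add_mul, add_mul]; exact add_mem hx hy
      | smul r x _ hx => rw [smul_mul_assoc, smul_mul_assoc]; exact Submodule.smul_mem _ _ hx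
    | zero => simp
    | add x y _ _ hx hy => rw [add_mul]; exact add_mem hx hy
  rw [w, hz]
  refine Submodule.smul_mem _ _ ?_
  simp only [word, List.map_append, List.map_replicate, List.prod_append, List.prod_replicate]
  exact hkey _ (M.pow_mem k)

lemma mem_span_red (ha : ∀ k, 0 < a k) {d : ℕ} {e : Fin (c + m) →₀ ℕ} (hd : e.degree = d) :
    M.w e ∈ Submodule.span D (M.w '' {e' | e' ∈ red a d ∧ key e' ≤ key e}) := by
  induction hn : (below d e).card using Nat.strong_induction_on generalizing e with
  | _ n ih =>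
    by_cases hred : e ∈ red a d
    · exact Submodule.subset_span ⟨e, ⟨hred, le_rfl⟩, rfl⟩
    obtain ⟨k, hk⟩ : ∃ k : Fin c, a k ≤ e (Fin.castAdd m k) := by
      by_contra h
      push Not at h
      exact hred (mem_red.2 ⟨hd, h⟩)
    refine (Submodule.span_le.2 ?_) (M.w_bad (ha k) hk)
    rintro _ ⟨e', ⟨hd', hlt⟩, rfl⟩
    refine Submodule.span_mono (Set.image_mono ?_) (ih (below d e').card ?_ (hd'.trans hd) rfl)
    · exact fun x hx => ⟨hx.1, hx.2.trans hlt.le⟩
    rw [← hn]
    classical
    refine Finset.card_lt_card ⟨fun x hx => ?_, fun h' => ?_⟩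
    · simp only [below, Finset.mem_filter] at hx ⊢
      exact ⟨hx.1, hx.2.trans hlt⟩
    · have hmem : e' ∈ below d e := by
        simp [below, hlt, ← Finsupp.degree_eq_sum, hd'.trans hd]
      have := h' hmem
      simp [below] at this

/-- An exponent that is not reduced comes from smaller reduced ones. -/
lemma w_not_red (ha : ∀ k, 0 < a k) {d : ℕ} {e : Fin (c + m) →₀ ℕ} (hd : e.degree = d)
    (he : e ∉ red a d) :
    M.w e ∈ Submodule.span D (M.w '' {e' | e' ∈ red a d ∧ key e' < key e}) := by
  obtain ⟨k, hk⟩ : ∃ k : Fin c, a k ≤ e (Fin.castAdd m k) := by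
    by_contra h
    push Not at h
    exact he (mem_red.2 ⟨hd, h⟩)
  refine (Submodule.span_le.2 ?_) (M.w_bad (ha k) hk)
  rintro _ ⟨e', ⟨hd', hlt⟩, rfl⟩
  refine Submodule.span_mono (Set.image_mono ?_) (M.mem_span_red ha (hd'.trans hd))
  exact fun x hx => ⟨hx.1, hx.2.trans_lt hlt⟩

lemma finrank_pc (d : ℕ) : finrank D (pc (D := D) f d) = finrank K (quoDeg f d) := by
  have := finite_quoDeg f d
  exact finrank_span_one_tmul _

lemma span_w (ha : ∀ k, 0 < a k) (d : ℕ) :
    Submodule.span D (M.w '' (red (m := m) a d : Set (Fin (c + m) →₀ ℕ))) = pc f d := by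
  refine le_antisymm (Submodule.span_le.2 ?_) ((M.pc_le_words d).trans (Submodule.span_le.2 ?_))
  · rintro _ ⟨e, he, rfl⟩
    have h := M.w_mem e
    rwa [(mem_red.1 he).1] at h
  · rintro _ ⟨e, he, rfl⟩
    refine Submodule.span_mono (Set.image_mono ?_) (M.mem_span_red ha he)
    exact fun x hx => hx.1

end Datum

end Vale.Agent.P200.Betti.Tri
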