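import Vale.Agent.P200.Betti.Tri.Extend
import Vale.Agent.P200.Betti.Pow.Main
import Vale.Agent.P200.Betti.Free.Degrees

/-!
The lex-plus-powers theorem from triangular rows over the algebraic closure.
-/

namespace Vale.Agent.P200.Betti.Tri

open MvPolynomial Module

universe u

/-- Lex-plus-powers with Betti numbers, for degrees whose regular sequences have triangular rows
over the algebraic closure. -/
theorem exists_lpp_of_triangular {K : Type u} [Field K] {n c N : ℕ} (hcn : c ≤ n) {a : Fin c → ℕ}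
    (hmono : Monotone a) (ha : ∀ i, 2 ≤ a i) (hN : 0 < N) (haN : ∀ i, a i < N)
    (H : Triangular (AlgebraicClosure K)
      fun i : Fin n => if h : (i : ℕ) < c then a ⟨i, h⟩ else N)
    {f : Fin c → MvPolynomial (Fin n) K} (hf : ∀ i, (f i).IsHomogeneous (a i))
    (hreg : RegList ⊥ (List.ofFn f))
    {I : Ideal (MvPolynomial (Fin n) K)} (hI : HomogI I) (hfI : ∀ i, f i ∈ I) :
    ∃ T : ℕ → Finset (Fin n →₀ ℕ), (∀ d,
      (∀ e ∈ T d, e.degree = d) ∧
      (∀ e : Fin n →₀ ℕ, e.degree = d → (∃ i : Fin c, a i ≤ e (Fin.castLE hcn i)) → e ∈ T d) ∧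
      (∀ e ∈ T d, ∀ e' : Fin n →₀ ℕ, e'.degree = d →
        (∀ i : Fin c, e (Fin.castLE hcn i) < a i) → (∀ i : Fin c, e' (Fin.castLE hcn i) < a i) →
        toLex e < toLex e' → e' ∈ T d) ∧
      (T d).card = finrank K (degPart d I) ∧
      ∀ e ∈ T d, ∀ v : Fin n, e + Finsupp.single v 1 ∈ T (d + 1)) ∧
    ∀ p j, betti I p j ≤ betti (setIdeal T K) p j := by
  obtain ⟨S, hdeg, hpow, hcl, hcard, hle⟩ :=
    exists_monomial_betti (fun i => by linarith [ha i]) hN haN hcn H hf hreg hI hfI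
  obtain ⟨T, hT, hle2⟩ := exists_lpp_monomial_powers K hcn hmono ha hdeg hpow hcl
  exact ⟨T, fun d => ⟨(hT d).1, (hT d).2.1, (hT d).2.2.1,
    (hT d).2.2.2.1.trans (hcard d), (hT d).2.2.2.2⟩, fun p j => (hle p j).trans (hle2 p j)⟩

/-- Degrees that are powers of the characteristic, given triangular rows for all of them. -/
theorem exists_lpp_powers_char {K : Type u} [Field K] {n c p : ℕ} (hp : 2 ≤ p) (hcn : c ≤ n)
    {a : Fin c → ℕ} (hmono : Monotone a) (hpow : ∀ i, ∃ s, 1 ≤ s ∧ a i = p ^ s)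
    (H : ∀ b : Fin n → ℕ, Monotone b → (∀ i, ∃ s, 1 ≤ s ∧ b i = p ^ s) →
      Triangular (AlgebraicClosure K) b)
    {f : Fin c → MvPolynomial (Fin n) K} (hf : ∀ i, (f i).IsHomogeneous (a i))
    (hreg : RegList ⊥ (List.ofFn f))
    {I : Ideal (MvPolynomial (Fin n) K)} (hI : HomogI I) (hfI : ∀ i, f i ∈ I) :
    ∃ T : ℕ → Finset (Fin n →₀ ℕ), (∀ d,
      (∀ e ∈ T d, e.degree = d) ∧
      (∀ e : Fin n →₀ ℕ, e.degree = d → (∃ i : Fin c, a i ≤ e (Fin.castLE hcn i)) → e ∈ T d) ∧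
      (∀ e ∈ T d, ∀ e' : Fin n →₀ ℕ, e'.degree = d →
        (∀ i : Fin c, e (Fin.castLE hcn i) < a i) → (∀ i : Fin c, e' (Fin.castLE hcn i) < a i) →
        toLex e < toLex e' → e' ∈ T d) ∧
      (T d).card = finrank K (degPart d I) ∧
      ∀ e ∈ T d, ∀ v : Fin n, e + Finsupp.single v 1 ∈ T (d + 1)) ∧
    ∀ q j, betti I q j ≤ betti (setIdeal T K) q j := by
  choose s hs hsa using hpow
  obtain ⟨S, hS⟩ : ∃ S, ∀ i, s i < S :=
    ⟨∑ i, s i + 1, fun i => Nat.lt_succ_of_le (Finset.single_le_sum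
      (fun _ _ => Nat.zero_le _) (Finset.mem_univ i))⟩
  have haN : ∀ i, a i < p ^ (S + 1) := fun i => by
    rw [hsa i]
    exact Nat.pow_lt_pow_right hp (by have := hS i; omega)
  refine exists_lpp_of_triangular hcn hmono (fun i => ?_) (pow_pos (by omega) _) haN
    (H _ ?_ fun i => ?_) hf hreg hI hfI
  · rw [hsa i]
    exact hp.trans (Nat.le_self_pow (by have := hs i; omega) p)
  · intro i j hij
    dsimp only
    split_ifs with h1 h2 h2
    · exact hmono hij
    · exact (haN _).le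
    · exact absurd (lt_of_le_of_lt (show (i : ℕ) ≤ j from hij) h2) h1
    · exact le_rfl
  · split_ifs with h
    · exact ⟨_, hs _, hsa _⟩
    · exact ⟨S + 1, by omega, rfl⟩

end Vale.Agent.P200.Betti.Tri
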