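import Vale.Agent.P200.Betti.Tri.Filt
import Vale.Agent.P200.Betti.Free.Leading

/-!
Standard monomials of an ideal among the increasing words, for triangular data.
-/

namespace Vale.Agent.P200.Betti.Tri

open MvPolynomial Module
open scoped TensorProduct
open Vale.Agent.P200.Quad (Quo quoDeg mkA finrank_span_one_tmul finite_quoDeg)
open Vale.Agent.P200.Betti.Skew (tensorRing pc xv rm rm_apply lin tmul_mul xv_comm mem_pc_tmul
  lin_mem_pc mul_mem_pc isp mul_mem_isp isp_inf_pc)

universe u

variable {K : Type u} [Field K] {c m : ℕ} {D : Type u} [DivisionRing D] [Algebra K D]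
  {Z : Type*} [Field Z] [Algebra Z D]
variable (f : Fin c → MvPolynomial (Fin (c + m)) K)

attribute [local instance] tensorRing

variable {f}

namespace Datum

variable {a : Fin c → ℕ} (M : Datum f (D := D) Z a)
variable (I : Ideal (MvPolynomial (Fin (c + m)) K))

/-- The standard exponents of the ideal in a degree. -/
noncomputable def std (d : ℕ) : Finset (Fin (c + m) →₀ ℕ) := by
  classical
  exact (red a d).filter fun e =>
    M.w e ∉ isp f I ⊔ Submodule.span D (M.w '' {e' | e' ∈ red a d ∧ key e' < key e})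

lemma mem_std {d : ℕ} {e : Fin (c + m) →₀ ℕ} :
    e ∈ M.std I d ↔ e ∈ red a d ∧
      M.w e ∉ isp f I ⊔ Submodule.span D (M.w '' {e' | e' ∈ red a d ∧ key e' < key e}) := by
  classical simp [std]

variable (ha : ∀ k, 0 < a k)

lemma tw_ne (k : Fin (c + m)) (e : Fin (c + m) →₀ ℕ) : M.tw k e ≠ 0 :=
  Finset.prod_ne_zero_iff.2 fun i hi => pow_ne_zero _ (M.q_ne k i (Finset.mem_filter.1 hi).2)

include ha in
/-- The exponents outside the standard ones are closed under the variables. -/
lemma std_closed {d : ℕ} {e : Fin (c + m) →₀ ℕ} (k : Fin (c + m))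
    (hd : e.degree = d) (h : e + Finsupp.single k 1 ∈ M.std I (d + 1)) : e ∈ M.std I d := by
  rw [mem_std] at h ⊢
  have hred : e ∈ red a d := mem_red.2 ⟨hd, fun i => lt_of_le_of_lt
    (by simp) ((mem_red.1 h.1).2 i)⟩
  refine ⟨hred, fun hmem => h.2 ?_⟩
  set e₁ := e + Finsupp.single k 1 with he₁
  set N := isp f I ⊔ Submodule.span D (M.w '' {e' | e' ∈ red a (d + 1) ∧ key e' < key e₁})
  have hmap : M.w e * M.G k ∈ N := by
    obtain ⟨x, hx, y, hy, hxy⟩ := Submodule.mem_sup.1 hmem
    rw [← hxy, add_mul]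
    refine add_mem (Submodule.mem_sup_left (mul_mem_isp hx _)) ?_
    clear hxy
    induction hy using Submodule.span_induction with
    | mem y hy =>
      obtain ⟨e', ⟨he', hlt⟩, rfl⟩ := hy
      rw [M.w_mul_G]
      refine Submodule.smul_mem _ _ (Submodule.mem_sup_right ?_)
      have hlt' : key (e' + Finsupp.single k 1) < key e₁ := by
        rw [he₁, add_comm e', add_comm e]
        exact (key_add_lt_iff _).2 hlt
      by_cases hr : e' + Finsupp.single k 1 ∈ red a (d + 1)
      · exact Submodule.subset_span ⟨_, ⟨hr, hlt'⟩, rfl⟩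
      · refine Submodule.span_mono (Set.image_mono ?_) (M.w_not_red ha ?_ hr)
        · exact fun e'' he'' => ⟨he''.1, he''.2.trans hlt'⟩
        · rw [map_add, Finsupp.degree_single, (mem_red.1 he').1]
    | zero => simp
    | add y z _ _ hy hz => rw [add_mul]; exact add_mem hy hz
    | smul r y _ hy => rw [smul_mul_assoc]; exact Submodule.smul_mem _ _ hy
  rw [M.w_mul_G] at hmap
  have hz : algebraMap Z D (M.tw k e) ≠ 0 :=
    (map_ne_zero_iff _ (algebraMap Z D).injective).2 (M.tw_ne k e)
  have h' := N.smul_mem (algebraMap Z D (M.tw k e))⁻¹ hmap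
  rwa [smul_smul, inv_mul_cancel₀ hz, one_smul] at h'

lemma mem_sup_std {d : ℕ} {e : Fin (c + m) →₀ ℕ} (he : e ∈ red a d) :
    M.w e ∈ isp f I ⊔ Submodule.span D (M.w '' {e' | e' ∈ M.std I d ∧ key e' ≤ key e}) := by
  classical
  induction hm : ((red (m := m) a d).filter fun e' => key e' < key e).card
    using Nat.strong_induction_on generalizing e with
  | _ r ih =>
    by_cases hs : e ∈ M.std I d
    · exact Submodule.mem_sup_right (Submodule.subset_span ⟨e, ⟨hs, le_rfl⟩, rfl⟩)
    rw [mem_std, not_and, not_not] at hs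
    have hle : isp f I ⊔ Submodule.span D (M.w '' {e' | e' ∈ red a d ∧ key e' < key e}) ≤
        isp f I ⊔ Submodule.span D (M.w '' {e' | e' ∈ M.std I d ∧ key e' ≤ key e}) := ?_
    · exact hle (hs he)
    refine sup_le le_sup_left (Submodule.span_le.2 ?_)
    rintro _ ⟨e', ⟨he', hlt⟩, rfl⟩
    have hsub : Submodule.span D (M.w '' {x | x ∈ M.std I d ∧ key x ≤ key e'}) ≤
        Submodule.span D (M.w '' {x | x ∈ M.std I d ∧ key x ≤ key e}) :=
      Submodule.span_mono (Set.image_mono fun x hx => ⟨hx.1, hx.2.trans hlt.le⟩)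
    refine (sup_le_sup_left hsub _) (ih _ ?_ he' rfl)
    · rw [← hm]
      refine Finset.card_lt_card ⟨fun x hx => ?_, fun h' => ?_⟩
      · rw [Finset.mem_filter] at hx ⊢
        exact ⟨hx.1, hx.2.trans hlt⟩
      · have := h' (Finset.mem_filter.2 ⟨he', hlt⟩)
        exact lt_irrefl _ (Finset.mem_filter.1 this).2

lemma linearIndependent_std (d : ℕ) :
    LinearIndependent D fun e : M.std I d => (isp f I).mkQ (M.w e.1) := by
  rw [Fintype.linearIndependent_iff]
  intro x hx
  by_contra hne
  push Not at hne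
  obtain ⟨i, hi⟩ := hne
  classical
  obtain ⟨e, he, hmax⟩ := (Finset.univ.filter fun j => x j ≠ 0).exists_max_image
    (fun j : M.std I d => key j.1) ⟨i, by simp [hi]⟩
  simp only [Finset.mem_filter, Finset.mem_univ, true_and] at he hmax
  refine ((M.mem_std I).1 e.2).2 ?_
  set N := isp f I ⊔ Submodule.span D (M.w '' {e' | e' ∈ red a d ∧ key e' < key e.1})
  have h1 : ∑ j, x j • M.w j.1 ∈ isp f I := by
    rw [← Submodule.Quotient.mk_eq_zero, ← Submodule.mkQ_apply, map_sum]
    simpa only [map_smul] using hx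
  have h2 : ∀ j ∈ Finset.univ.erase e, x j • M.w j.1 ∈ N := fun j hj => by
    by_cases h0 : x j = 0
    · rw [h0, zero_smul]; exact zero_mem _
    refine Submodule.smul_mem _ _ (Submodule.mem_sup_right (Submodule.subset_span
      ⟨j.1, ⟨((M.mem_std I).1 j.2).1, lt_of_le_of_ne (hmax j h0) fun h => ?_⟩, rfl⟩))
    exact (Finset.mem_erase.1 hj).1 (Subtype.ext (key_injective h))
  have h3 : x e • M.w e.1 ∈ N := by
    have hsum := Finset.add_sum_erase Finset.univ (fun j => x j • M.w j.1) (Finset.mem_univ e)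
    rw [eq_sub_of_add_eq hsum]
    exact sub_mem (Submodule.mem_sup_left h1) (sum_mem h2)
  simpa [smul_smul, inv_mul_cancel₀ he] using N.smul_mem (x e)⁻¹ h3

set_option maxHeartbeats 800000 in
include ha in
lemma span_std (d : ℕ) :
    Submodule.span D (Set.range fun e : M.std I d => (isp f I).mkQ (M.w e.1)) =
      (pc (D := D) f d).map (isp (D := D) f I).mkQ := by
  rw [← M.span_w ha d]
  refine le_antisymm (Submodule.span_le.2 ?_) ?_
  · rintro _ ⟨e, rfl⟩
    exact Submodule.mem_map_of_mem (Submodule.subset_span ⟨e.1, ((M.mem_std I).1 e.2).1, rfl⟩)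
  · rw [Submodule.map_span, Submodule.span_le]
    rintro _ ⟨_, ⟨e, he, rfl⟩, rfl⟩
    obtain ⟨x, hx, y, hy, hxy⟩ := Submodule.mem_sup.1 (M.mem_sup_std I he)
    rw [SetLike.mem_coe, ← hxy, map_add, Submodule.mkQ_apply,
      (Submodule.Quotient.mk_eq_zero _).2 hx, zero_add]
    have hy' : (isp f I).mkQ y ∈ (Submodule.span D
        (M.w '' {e' | e' ∈ M.std I d ∧ key e' ≤ key e})).map (isp f I).mkQ :=
      Submodule.mem_map_of_mem hy
    rw [Submodule.map_span] at hy'
    refine Submodule.span_mono ?_ hy'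
    rintro _ ⟨_, ⟨e', he', rfl⟩, rfl⟩
    exact ⟨⟨e', he'.1⟩, rfl⟩

include ha in
lemma card_std (hf : HomogI (Ideal.span (Set.range f))) (hI : HomogI I) (d : ℕ) :
    (M.std I d).card + finrank K ((degPart d I).map (mkA f)) = finrank K (quoDeg f d) := by
  have := finite_quoDeg f d
  have hjb : (degPart d I).map (mkA f) ≤ quoDeg f d := Submodule.map_mono inf_le_left
  have := Submodule.finiteDimensional_of_le hjb
  have h1 : (M.std I d).card = finrank D ((pc (D := D) f d).map (isp (D := D) f I).mkQ) := by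
    rw [← M.span_std I ha d, finrank_span_eq_card (M.linearIndependent_std I d), Fintype.card_coe]
  have hfin : FiniteDimensional D (pc (D := D) f d) := by
    rw [← M.span_w ha d]
    exact FiniteDimensional.span_of_finite D ((Finset.finite_toSet _).image _)
  have h2 := LinearMap.finrank_range_add_finrank_ker ((isp (D := D) f I).mkQ.domRestrict (pc (D := D) f d))
  rw [LinearMap.range_domRestrict, LinearMap.ker_domRestrict, Submodule.ker_mkQ,
    finrank_pc (f := f) (D := D)] at h2
  have h3 : finrank D ((isp (D := D) f I).comap (pc f d).subtype) =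
      finrank K ((degPart d I).map (mkA f)) := by
    rw [← finrank_span_one_tmul (D := D) ((degPart d I).map (mkA f)), ← isp_inf_pc hf hI d,
      inf_comm, ← Submodule.map_comap_subtype,
      (Submodule.equivSubtypeMap (pc f d) _).finrank_eq]
  rw [h1, ← h3]
  exact h2

set_option maxHeartbeats 800000 in
include ha in
/-- Coordinates: triangular with respect to the order. -/
lemma exists_coord {d : ℕ} {e : Fin (c + m) →₀ ℕ} (he : e ∈ M.std I d) :
    ∃ φ : (D ⊗[K] Quo f) ⧸ isp (D := D) f I →ₗ[D] D, ∀ e' : Fin (c + m) →₀ ℕ, e'.degree = d →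
      key e' ≤ key e → φ ((isp (D := D) f I).mkQ (M.w e')) = if e' = e then 1 else 0 := by
  classical
  let b := Basis.span (M.linearIndependent_std I d)
  obtain ⟨φ, hφ⟩ := LinearMap.exists_extend (b.coord ⟨e, he⟩)
  have hb : ∀ j : M.std I d, φ ((isp (D := D) f I).mkQ (M.w j.1)) = if j.1 = e then 1 else 0 := by
    intro j
    have h := LinearMap.congr_fun hφ (b j)
    rw [LinearMap.comp_apply, Submodule.subtype_apply, Basis.coord_apply, Basis.repr_self,
      Finsupp.single_apply, Basis.span_apply] at h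
    simp only [Subtype.ext_iff] at h
    exact h
  refine ⟨φ, fun e' hd hle => ?_⟩
  by_cases hs : e' ∈ M.std I d
  · exact hb ⟨e', hs⟩
  have hne : e' ≠ e := by rintro rfl; exact hs he
  rw [if_neg hne]
  have hmem : M.w e' ∈ isp (D := D) f I ⊔
      Submodule.span D (M.w '' {x | x ∈ M.std I d ∧ key x < key e'}) := by
    have h1 : M.w e' ∈ isp (D := D) f I ⊔
        Submodule.span D (M.w '' {x | x ∈ red a d ∧ key x < key e'}) := by
      by_cases hr : e' ∈ red a d
      · rw [mem_std, not_and, not_not] at hs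
        exact hs hr
      · exact Submodule.mem_sup_right (M.w_not_red ha hd hr)
    have hle : isp (D := D) f I ⊔ Submodule.span D (M.w '' {x | x ∈ red a d ∧ key x < key e'}) ≤
        isp (D := D) f I ⊔ Submodule.span D (M.w '' {x | x ∈ M.std I d ∧ key x < key e'}) := ?_
    · exact hle h1
    refine sup_le le_sup_left (Submodule.span_le.2 ?_)
    rintro _ ⟨x, ⟨hx, hlt⟩, rfl⟩
    have hsub : Submodule.span D (M.w '' {y | y ∈ M.std I d ∧ key y ≤ key x}) ≤
        Submodule.span D (M.w '' {y | y ∈ M.std I d ∧ key y < key e'}) :=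
      Submodule.span_mono (Set.image_mono fun y hy => ⟨hy.1, lt_of_le_of_lt hy.2 hlt⟩)
    exact (sup_le_sup_left hsub _) (M.mem_sup_std I hx)
  obtain ⟨x, hx, y, hy, hxy⟩ := Submodule.mem_sup.1 hmem
  rw [← hxy, map_add, Submodule.mkQ_apply, (Submodule.Quotient.mk_eq_zero _).2 hx, zero_add]
  clear hxy hmem
  induction hy using Submodule.span_induction with
  | mem y hy =>
    obtain ⟨z, ⟨hz, hlt⟩, rfl⟩ := hy
    rw [hb ⟨z, hz⟩]
    exact if_neg fun h => absurd (h ▸ hlt) (not_lt.2 hle)
  | zero => simp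
  | add y z _ _ hy hz => rw [map_add, map_add, hy, hz, add_zero]
  | smul r y _ hy => rw [map_smul, map_smul, hy, smul_zero]

end Datum

end Vale.Agent.P200.Betti.Tri
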