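import Vale.Agent.P200.Betti.Tri.Extend
import Vale.Agent.P200.PMix.RowSpec

/-!
Rows with symmetrised commutation and triangular powers give triangular data for the degeneration.
-/

namespace Vale.Agent.P200.Betti.Tri

open MvPolynomial Module
open scoped TensorProduct
open Vale.Agent.P200.Quad (Quo quoDeg mkA)
open Vale.Agent.P200.Betti.Skew (tensorRing pc rm rm_apply lin)

universe u

attribute [local instance] tensorRing

/-- Triangular rows from rows with twist one. -/
theorem triangular_of_hasRows {L : Type u} [Field L] {n : ℕ} {a : Fin n → ℕ}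
    (H : _root_.Vale.Agent.P200.PMix.HasRows L a) : Triangular L a := by
  intro f hf hreg
  obtain ⟨D, iD, iA, ⟨M⟩⟩ := H f hf hreg
  refine ⟨D, iD, iA, M.g, M.E, fun _ _ => 1, fun _ _ _ => one_ne_zero,
    fun k l _ i => by rw [map_one, one_mul]; exact M.diag_comm k l i,
    fun k l _ i j => by rw [map_one, one_mul]; exact M.sym_comm k l i j, M.inv, fun k => ?_⟩
  rw [show lin f (M.g k) ^ a k = ∑ m, M.mult k m * lin f (M.g m) from M.pow k]
  refine sum_mem fun m _ => ?_
  by_cases h : k < m
  · exact Submodule.mem_iSup_of_mem ⟨m, h⟩ ⟨M.mult k m, M.mult_mem k m, rfl⟩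
  · rw [M.mult_zero k m h, zero_mul]
    exact zero_mem _

end Vale.Agent.P200.Betti.Tri
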